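import Mathlib.Algebra.Algebra.Field
import Mathlib.Algebra.Order.Archimedean.Real.Hom
import Mathlib.Algebra.Order.Chebyshev
import Mathlib.Algebra.Order.Group.DenselyOrdered
import Mathlib.Algebra.Order.Ring.Star
import Mathlib.Algebra.Order.Star.Real
import Mathlib.Algebra.Ring.IsFormallyReal
import Mathlib.Analysis.InnerProductSpace.Dual
import Mathlib.Analysis.InnerProductSpace.l2Space
import Mathlib.Analysis.LocallyConvex.WeakSpace
import Mathlib.Analysis.Normed.Module.WeakDual
import Mathlib.Analysis.Real.OfDigits
import Mathlib.Data.Finsupp.Encodable
import Mathlib.Data.Nat.Nth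
import Mathlib.MeasureTheory.Measure.Lebesgue.Basic
import Mathlib.Order.CompletePartialOrder
import Mathlib.RingTheory.Flat.TorsionFree
import Mathlib.RingTheory.Henselian
import Mathlib.RingTheory.RegularLocalRing.Defs
import Mathlib.RingTheory.SimpleRing.Principal
import Mathlib.Tactic
import Mathlib.Topology.Baire.LocallyCompactRegular
import Mathlib.Topology.Filter
import Mathlib.Topology.MetricSpace.Sequences
import Mathlib.Topology.UniformSpace.Uniformizable

/-! The part of Mathlib that the development of this folder uses. -/
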